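import Mathlib

/-!
Ruzsa's digit construction of sets without square differences, from a modulus `m` and a set of
residues whose differences are not squares modulo `m`.
-/

namespace Vale.Agent.SquareDiff

/-- `A` has no two elements whose difference is the square of a nonzero integer. -/
def NoSquareDiff (A : Finset ℕ) : Prop :=
  ∀ a ∈ A, ∀ b ∈ A, ∀ n : ℤ, n ≠ 0 → (a : ℤ) - (b : ℤ) ≠ n ^ 2

/-- `R` is a set of residues below `m`, no two of which differ by a square modulo `m`. -/
def GoodResidues (m : ℕ) (R : Finset ℕ) : Prop :=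
  (∀ a ∈ R, a < m) ∧ ∀ a ∈ R, ∀ b ∈ R, a ≠ b → ∀ n : ℤ, ¬ (m : ℤ) ∣ (a : ℤ) - (b : ℤ) - n ^ 2

/-- The digit sets: digits at even places lie in `R`, digits at odd places are free. -/
def digitSet (m : ℕ) (R : Finset ℕ) : ℕ → Finset ℕ
  | 0 => {0}
  | k + 1 => ((R ×ˢ (Finset.range m ×ˢ digitSet m R k))).image
      (fun t => t.1 + m * t.2.1 + m ^ 2 * t.2.2)

lemma digitSet_lt {m : ℕ} {R : Finset ℕ} (hR : ∀ a ∈ R, a < m) :
    ∀ k, ∀ x ∈ digitSet m R k, x < m ^ (2 * k) := by
  intro k
  induction k with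
  | zero =>
    intro x hx
    simp only [digitSet, Finset.mem_singleton] at hx
    subst hx
    simp
  | succ k ih =>
    intro x hx
    simp only [digitSet, Finset.mem_image, Finset.mem_product, Finset.mem_range] at hx
    obtain ⟨⟨a, s, y⟩, ⟨ha, hs, hy⟩, rfl⟩ := hx
    have h1 := hR a ha
    have h2 := ih y hy
    simp only at h1 hs h2 ⊢
    have h3 : a + m * s < m ^ 2 := by
      have : a + m * s < m + m * s := by omega
      have h4 : m + m * s = m * (s + 1) := by ring
      have h5 : m * (s + 1) ≤ m * m := Nat.mul_le_mul_left m (by omega)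
      nlinarith
    have h4 : y + 1 ≤ m ^ (2 * k) := h2
    calc a + m * s + m ^ 2 * y < m ^ 2 + m ^ 2 * y := by omega
      _ = m ^ 2 * (y + 1) := by ring
      _ ≤ m ^ 2 * m ^ (2 * k) := Nat.mul_le_mul_left _ h4
      _ = m ^ (2 * (k + 1)) := by ring

lemma digit_inj {m a b s t x y : ℕ} (ha : a < m) (hb : b < m) (hs : s < m) (ht : t < m)
    (h : a + m * s + m ^ 2 * x = b + m * t + m ^ 2 * y) : a = b ∧ s = t ∧ x = y := by
  have hm : 0 < m := by omega
  have e1 : (a + m * s + m ^ 2 * x) % m = a := by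
    have : a + m * s + m ^ 2 * x = a + m * (s + m * x) := by ring
    rw [this, Nat.add_mul_mod_self_left, Nat.mod_eq_of_lt ha]
  have e2 : (b + m * t + m ^ 2 * y) % m = b := by
    have : b + m * t + m ^ 2 * y = b + m * (t + m * y) := by ring
    rw [this, Nat.add_mul_mod_self_left, Nat.mod_eq_of_lt hb]
  have hab : a = b := by rw [← e1, h, e2]
  subst hab
  have h' : m * (s + m * x) = m * (t + m * y) := by
    have h1 : a + m * (s + m * x) = a + m * (t + m * y) := by
      calc a + m * (s + m * x) = a + m * s + m ^ 2 * x := by ring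
        _ = a + m * t + m ^ 2 * y := h
        _ = a + m * (t + m * y) := by ring
    omega
  have h2 : s + m * x = t + m * y := Nat.eq_of_mul_eq_mul_left hm h'
  have e3 : (s + m * x) % m = s := by
    rw [Nat.add_mul_mod_self_left, Nat.mod_eq_of_lt hs]
  have e4 : (t + m * y) % m = t := by
    rw [Nat.add_mul_mod_self_left, Nat.mod_eq_of_lt ht]
  have hst : s = t := by rw [← e3, h2, e4]
  subst hst
  have h3 : m * x = m * y := by omega
  exact ⟨rfl, rfl, Nat.eq_of_mul_eq_mul_left hm h3⟩

lemma card_digitSet {m : ℕ} {R : Finset ℕ} (hR : ∀ a ∈ R, a < m) :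
    ∀ k, (digitSet m R k).card = (R.card * m) ^ k := by
  intro k
  induction k with
  | zero => simp [digitSet]
  | succ k ih =>
    simp only [digitSet]
    rw [Finset.card_image_of_injOn]
    · rw [Finset.card_product, Finset.card_product, Finset.card_range, ih]
      ring
    · rintro ⟨a, s, x⟩ h1 ⟨b, t, y⟩ h2 h
      simp only [Finset.coe_product, Set.mem_prod, Finset.mem_coe, Finset.mem_range] at h1 h2
      have := digit_inj (hR a h1.1) (hR b h2.1) h1.2.1 h2.2.1 h
      obtain ⟨rfl, rfl, rfl⟩ := this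
      rfl

/-- In a squarefree modulus `m`, a multiple `m * w` with `m ∤ w` is not a square. -/
lemma not_square_of_first_digit {m : ℕ} (hsq : Squarefree m) {w n : ℤ}
    (hw : ¬ (m : ℤ) ∣ w) : (m : ℤ) * w ≠ n ^ 2 := by
  intro h
  -- a prime factor of `m` not dividing `w`
  have hex : ∃ p : ℕ, p.Prime ∧ p ∣ m ∧ ¬ (p : ℤ) ∣ w := by
    by_contra hcon
    push Not at hcon
    apply hw
    -- all primes of `m` divide `w.natAbs`, so `m` divides it by squarefreeness
    have hdvd : m ∣ w.natAbs := by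
      have h1 : ∀ p : ℕ, p.Prime → p ∣ m → p ∣ w.natAbs := by
        intro p hp hpm
        exact Int.natCast_dvd.mp (hcon p hp hpm)
      by_cases hw0 : w = 0
      · subst hw0; simp
      · rw [← Nat.prod_primeFactors_of_squarefree hsq]
        apply Finset.prod_primes_dvd
        · intro p hp
          exact (Nat.prime_of_mem_primeFactors hp).prime
        · intro p hp
          exact h1 p (Nat.prime_of_mem_primeFactors hp) (Nat.dvd_of_mem_primeFactors hp)
    exact Int.natCast_dvd.mpr hdvd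
  obtain ⟨p, hp, hpm, hpw⟩ := hex
  obtain ⟨m', hm'⟩ := hpm
  have hpi : Prime (p : ℤ) := Nat.prime_iff_prime_int.mp hp
  have hpn : (p : ℤ) ∣ n := by
    apply hpi.dvd_of_dvd_pow (n := 2)
    rw [← h, hm']
    push_cast
    exact ⟨(m' : ℤ) * w, by ring⟩
  obtain ⟨n', rfl⟩ := hpn
  have hp0 : (p : ℤ) ≠ 0 := hpi.ne_zero
  have h2 : (m' : ℤ) * w = p * n' ^ 2 := by
    have h3 : (p : ℤ) * ((m' : ℤ) * w) = p * (p * n' ^ 2) := by
      have := h
      rw [hm'] at this
      push_cast at this
      linarith [this, (by ring : ((p : ℤ) * n') ^ 2 = p * (p * n' ^ 2)),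
        (by ring : (p : ℤ) * m' * w = p * (m' * w))]
    exact mul_left_cancel₀ hp0 h3
  have h4 : (p : ℤ) ∣ (m' : ℤ) * w := ⟨_, h2⟩
  rcases hpi.dvd_or_dvd h4 with h5 | h5
  · -- `p ∣ m'` contradicts squarefreeness
    have h6 : p ∣ m' := Int.natCast_dvd_natCast.mp h5
    obtain ⟨m'', rfl⟩ := h6
    have h7 : p * p ∣ m := ⟨m'', by rw [hm']; ring⟩
    exact hp.not_isUnit (hsq p h7)
  · exact hpw h5

/-- The digit sets have no square differences. -/
lemma digitSet_noSquare {m : ℕ} {R : Finset ℕ} (hsq : Squarefree m) (hR : GoodResidues m R) :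
    ∀ k, ∀ x ∈ digitSet m R k, ∀ y ∈ digitSet m R k, x ≠ y →
      ∀ n : ℤ, (x : ℤ) - (y : ℤ) ≠ n ^ 2 := by
  have hm0 : m ≠ 0 := hsq.ne_zero
  have hm1 : (m : ℤ) ≠ 0 := by exact_mod_cast hm0
  intro k
  induction k with
  | zero =>
    intro x hx y hy hxy
    simp only [digitSet, Finset.mem_singleton] at hx hy
    exact absurd (hx.trans hy.symm) hxy
  | succ k ih =>
    intro x hx y hy hxy n hn
    simp only [digitSet, Finset.mem_image, Finset.mem_product, Finset.mem_range] at hx hy
    obtain ⟨⟨a, s, x'⟩, ⟨ha, hs, hx'⟩, rfl⟩ := hx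
    obtain ⟨⟨b, t, y'⟩, ⟨hb, ht, hy'⟩, rfl⟩ := hy
    simp only at ha hs hx' hb ht hy' hxy hn
    push_cast at hn
    by_cases hab : a = b
    · subst hab
      by_cases hst : s = t
      · subst hst
        -- the top part
        have hxy' : x' ≠ y' := by
          intro h; apply hxy; rw [h]
        have h1 : (m : ℤ) ^ 2 * ((x' : ℤ) - y') = n ^ 2 := by
          rw [← hn]; ring
        have h2 : ((m : ℤ)) ^ 2 ∣ n ^ 2 := ⟨_, h1.symm⟩
        have h3 : (m : ℤ) ∣ n := (Int.pow_dvd_pow_iff (by norm_num)).mp h2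
        obtain ⟨n', rfl⟩ := h3
        have h4 : (m : ℤ) ^ 2 * ((x' : ℤ) - y') = (m : ℤ) ^ 2 * n' ^ 2 := by
          rw [h1]; ring
        have h5 := mul_left_cancel₀ (pow_ne_zero 2 hm1) h4
        exact ih x' hx' y' hy' hxy' n' h5
      · -- the odd digit differs
        have hw : ¬ (m : ℤ) ∣ ((s : ℤ) - t + m * ((x' : ℤ) - y')) := by
          intro h
          have h1 : (m : ℤ) ∣ (s : ℤ) - t := by
            have := dvd_sub h (Dvd.intro (((x' : ℤ) - y')) rfl : (m : ℤ) ∣ m * ((x' : ℤ) - y'))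
            simpa using this
          have h2 : |(s : ℤ) - t| < m := by
            rw [abs_lt]; constructor <;> omega
          have h3 := Int.eq_zero_of_abs_lt_dvd h1 h2
          omega
        apply not_square_of_first_digit hsq hw (n := n)
        rw [← hn]; ring
    · -- the even digit differs
      apply hR.2 a ha b hb hab n
      refine ⟨(t : ℤ) - s + m * ((y' : ℤ) - x'), ?_⟩
      rw [← hn]; ring

end Vale.Agent.SquareDiff
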